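import Crest.Agent.N221.Defs

/-!
Row 221: the two core statements `A1S` (Liouville = Bowen-Margulis makes `U` smooth) and `A2S`
(smooth `U` makes `R` parallel).
-/

set_option autoImplicit false

open Set
open scoped ContDiff
open Crest.GeometryTopology.Submanifold
open Crest.Agent.R241.DDefs Crest.Agent.R241.D2
open Crest.Agent.R208.J Crest.Agent.R208.L

namespace Crest.Agent.N221

/-- `U` is smooth -/
def Sm {n N : ℕ} {a : ℝ} {S : Set (Euc N)} (G : Geo n N (-(a ^ 2)) S) : Prop :=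
  ∃ V : TT N → Op N, ContDiff ℝ ∞ V ∧ EqOn V (U G) (US G)

/-- step A1 -/
def A1S : Prop := ∀ (n N : ℕ) (a : ℝ) (S : Set (Euc N)) (G : Geo n N (-(a ^ 2)) S),
  Hyp n N a S → Cob G → Sm G

/-- step A2 -/
def A2S : Prop := ∀ (n N : ℕ) (a : ℝ) (S : Set (Euc N)) (G : Geo n N (-(a ^ 2)) S),
  Hyp n N a S → Cob G → Sm G → Par G

theorem core_of (h1 : A1S) (h2 : A2S) : CoreS :=
  fun n N a S G H h => h2 n N a S G H h (h1 n N a S G H h)

end Crest.Agent.N221
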