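import Crest.Agent.N221.Defs

/-! Row 221: basic lemmas on `US`, `rev`, `hat`, `Pv` (helper71). -/

set_option autoImplicit false

open MeasureTheory Set Filter Topology
open scoped ContDiff RealInnerProductSpace ENNReal
open Crest.GeometryTopology.Submanifold
open Crest.Agent.R241.DDefs Crest.Agent.R241.D2
open Crest.Agent.R208.J Crest.Agent.R208.L

noncomputable section

namespace Crest.Agent.N221

variable {n N : ℕ} {κ : ℝ} {S : Set (Euc N)} {G : Geo n N κ S} {q : TT N}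

lemma fl_US (hq : q ∈ US G) (t : ℝ) : fl G (q, t) ∈ US G :=
  ⟨fl_mem G hq.1 t, by rw [norm_fl G hq.1 t]; exact hq.2⟩

lemma rev_US (hq : q ∈ US G) : rev q ∈ US G := ⟨rev_mem G hq.1, by simpa [rev] using hq.2⟩

lemma isCompact_US (G : Geo n N κ S) (hc : IsCompact S) : IsCompact (US G) := by
  refine (hc.prod (isCompact_closedBall (0 : Euc N) 1)).of_isClosed_subset (isClosed_US G) ?_
  intro q hq
  exact ⟨hq.1.1, by simpa using hq.2.le⟩

lemma fl_rev' (hq : q ∈ TS G) (t : ℝ) : fl G (rev q, t) = rev (fl G (q, -t)) := by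
  have := (fl_rev G (complete G hq (-t))).2
  rwa [neg_neg] at this

lemma continuousOn_fl (G : Geo n N κ S) :
    ContinuousOn (fun p : TT N × ℝ => fl G p) (TS G ×ˢ univ) :=
  fun p hp => (contDiffAt_fl' G (q := p.1) hp.1 p.2).continuousAt.continuousWithinAt

lemma continuous_fl_t (hq : q ∈ TS G) : Continuous fun t => fl G (q, t) :=
  (contDiff_fl_t hq).continuous

lemma PT_rev (hq : q ∈ TS G) (t : ℝ) : PT G (rev q) t = PT G q (-t) := by
  ext1 w
  have h := eq_PT (G := G) (q := rev q) (rev_mem G hq) (W := fun s => PT G q (-s) w)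
    (fun s => by
      have h1 := (hasDerivAt_PT_apply hq (-s) w).scomp s (hasDerivAt_neg s)
      rw [fl_rev' hq, Om_rev]
      simpa [Function.comp_def] using h1) t
  simpa using h.symm

lemma PTi_rev (hq : q ∈ TS G) (t : ℝ) : PTi G (rev q) t = PTi G q (-t) := by
  unfold PTi; rw [PT_rev hq]

lemma dP_rev (q : TT N) : dP G (rev q) = -dP G q := by simp [dP, rev]

lemma Rm_rev (q : TT N) : Rm G (rev q) = Rm G q := by
  ext1 w
  rw [Rm_apply, Rm_apply, Rm0_apply, Rm0_apply, dP_rev]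
  simp [rev]

lemma Pv_rev (q : TT N) : Pv G (rev q) = Pv G q := by
  ext1 w
  simp [Pv_apply, rev]

lemma Vp_rev (q : TT N) : Vp G (rev q) = Vp G q := by
  ext w
  simp [mem_Vp, rev]

lemma hat_apply (F : TT N → Op N) (q : TT N) (t : ℝ) (w : Euc N) :
    hat G F q t w = PTi G q t (F (fl G (q, t)) (PT G q t w)) := rfl

lemma hat_zero (F : TT N → Op N) (q : TT N) : hat G F q 0 = F q := by
  ext1 w
  rw [hat_apply, fl_zero, PT_zero, PTi_zero_apply]
  rfl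

lemma hat_rev (F : TT N → Op N) (hq : q ∈ TS G) (t : ℝ) :
    hat G F (rev q) t = hat G (fun z => F (rev z)) q (-t) := by
  unfold hat
  rw [PT_rev hq, PTi_rev hq, fl_rev' hq]

lemma Rh_rev (hq : q ∈ TS G) (t : ℝ) : Rh G (rev q) t = Rh G q (-t) := by
  rw [Rh_eq_hat, hat_rev _ hq, Rh_eq_hat]
  simp only [Rm_rev]

/-- cocycle property -/
lemma hat_add (F : TT N → Op N) (hq : q ∈ TS G) (s t : ℝ) :
    hat G F q (s + t) = PTi G q s ∘L hat G F (fl G (q, s)) t ∘L PT G q s := by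
  ext1 w
  simp only [ContinuousLinearMap.comp_apply, hat_apply]
  rw [PTi_add hq, PT_add hq, fl_add' G hq]

lemma hat_hat (F : TT N → Op N) (hq : q ∈ TS G) (s t : ℝ) :
    hat G (fun z => hat G F z t) q s = hat G F q (s + t) := (hat_add F hq s t).symm

lemma hat_comp (F F' : TT N → Op N) (hq : q ∈ TS G) (t : ℝ) :
    hat G (fun z => F z ∘L F' z) q t = hat G F q t ∘L hat G F' q t := by
  ext1 w
  simp only [ContinuousLinearMap.comp_apply, hat_apply]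
  rw [PT_PTi hq]

lemma hat_add' (F F' : TT N → Op N) (q : TT N) (t : ℝ) :
    hat G (fun z => F z + F' z) q t = hat G F q t + hat G F' q t := by
  ext1 w; simp [hat_apply]

lemma hat_sub (F F' : TT N → Op N) (q : TT N) (t : ℝ) :
    hat G (fun z => F z - F' z) q t = hat G F q t - hat G F' q t := by
  ext1 w; simp [hat_apply]

lemma hat_smul (c : ℝ) (F : TT N → Op N) (q : TT N) (t : ℝ) :
    hat G (fun z => c • F z) q t = c • hat G F q t := by
  ext1 w; simp [hat_apply]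

lemma hat_id (hq : q ∈ TS G) (t : ℝ) :
    hat G (fun _ => ContinuousLinearMap.id ℝ (Euc N)) q t = ContinuousLinearMap.id ℝ (Euc N) := by
  ext1 w
  rw [hat_apply]
  exact PTi_PT hq t w

lemma Pv_PT (hq : q ∈ TS G) (t : ℝ) (w : Euc N) :
    Pv G (fl G (q, t)) (PT G q t w) = PT G q t (Pv G q w) := by
  rw [Pv_apply, Pv_apply, P_PT hq, ← PT_velocity hq t, inner_PT hq, map_sub, map_smul]

lemma hat_Pv (hq : q ∈ TS G) (t : ℝ) : hat G (Pv G) q t = Pv G q := by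
  ext1 w
  rw [hat_apply, Pv_PT hq, PTi_PT hq]

lemma inner_hat (F : TT N → Op N) (q : TT N) (t : ℝ) (x y : Euc N) :
    ⟪hat G F q t x, y⟫ = ⟪F (fl G (q, t)) (PT G q t x), PT G q t y⟫ := by
  rw [hat_apply, inner_PTi_left]

lemma norm_hat (F : TT N → Op N) (hq : q ∈ TS G) (t : ℝ) :
    ‖hat G F q t‖ ≤ ‖F (fl G (q, t))‖ := by
  refine ContinuousLinearMap.opNorm_le_bound _ (norm_nonneg _) fun w => ?_
  rw [hat_apply, norm_PTi hq, ← norm_PT hq t w]
  exact ContinuousLinearMap.le_opNorm _ _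

lemma trace_hat (F : TT N → Op N) (hq : q ∈ TS G) (t : ℝ) :
    LinearMap.trace ℝ (Euc N) (hat G F q t : Euc N →ₗ[ℝ] Euc N) =
      LinearMap.trace ℝ (Euc N) (F (fl G (q, t)) : Euc N →ₗ[ℝ] Euc N) := by
  have h1 : (hat G F q t : Euc N →ₗ[ℝ] Euc N) = (PTi G q t : Euc N →ₗ[ℝ] Euc N) ∘ₗ
      ((F (fl G (q, t)) : Euc N →ₗ[ℝ] Euc N) ∘ₗ (PT G q t : Euc N →ₗ[ℝ] Euc N)) := rfl
  rw [h1, LinearMap.trace_comp_comm']
  congr 1
  ext1 w
  simp [PT_PTi hq]

lemma det_hat (F : TT N → Op N) (hq : q ∈ TS G) (t : ℝ) :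
    (hat G F q t).det = (F (fl G (q, t))).det := by
  have h1 : (hat G F q t : Euc N →ₗ[ℝ] Euc N) = (PTi G q t : Euc N →ₗ[ℝ] Euc N) ∘ₗ
      ((F (fl G (q, t)) : Euc N →ₗ[ℝ] Euc N) ∘ₗ (PT G q t : Euc N →ₗ[ℝ] Euc N)) := rfl
  have h2 : (PTi G q t : Euc N →ₗ[ℝ] Euc N) ∘ₗ (PT G q t : Euc N →ₗ[ℝ] Euc N) = LinearMap.id := by
    ext1 w; simp [PTi_PT hq]
  have h3 := congrArg LinearMap.det h2
  rw [LinearMap.det_comp, LinearMap.det_id] at h3
  unfold ContinuousLinearMap.det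
  rw [h1, LinearMap.det_comp, LinearMap.det_comp, mul_comm (LinearMap.det (F _ : Euc N →ₗ[ℝ] Euc N)),
    ← mul_assoc, h3, one_mul]

lemma inner_Pv (hq : q ∈ TS G) (x y : Euc N) : ⟪Pv G q x, y⟫ = ⟪x, Pv G q y⟫ := by
  rw [Pv_apply, Pv_apply, inner_sub_left, inner_sub_right, inner_P_left G hq.1, inner_smul_left,
    inner_smul_right, real_inner_comm x q.2]
  simp [mul_comm]

lemma Pv_Pv (hq : q ∈ US G) (w : Euc N) : Pv G q (Pv G q w) = Pv G q w :=
  Pv_of_mem hq.1 (Pv_mem hq.1 hq.2 w)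

lemma norm_sq_Pv (hq : q ∈ US G) (w : Euc N) :
    ‖w‖ ^ 2 = ‖Pv G q w‖ ^ 2 + ‖w - Pv G q w‖ ^ 2 := by
  have h : ⟪Pv G q w, w - Pv G q w⟫ = 0 := by
    rw [inner_Pv hq.1, map_sub, Pv_Pv hq, sub_self, inner_zero_right]
  have h2 := norm_add_sq_real (Pv G q w) (w - Pv G q w)
  rw [h, add_sub_cancel] at h2
  linarith

lemma norm_Pv_le (hq : q ∈ US G) (w : Euc N) : ‖Pv G q w‖ ≤ ‖w‖ := by
  have := norm_sq_Pv hq w
  nlinarith [norm_nonneg w, norm_nonneg (Pv G q w), sq_nonneg ‖w - Pv G q w‖]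

lemma Rm_Vp (hq : q ∈ TS G) (w : Euc N) : Rm G q w ∈ Vp G q := by
  have := Rh_Vp hq 0 w
  rwa [Rh_eq_hat, hat_zero] at this

lemma Rm_Pv (hq : q ∈ TS G) (w : Euc N) : Rm G q (Pv G q w) = Rm G q w := by
  rw [Pv_apply, map_sub, map_smul, Rm_velocity hq, smul_zero, sub_zero, Rm_P hq]

/-- the curvature bound on `Vp` -/
lemma inner_Rm_le (hq : q ∈ US G) {w : Euc N} (hw : w ∈ Vp G q) :
    ⟪Rm G q w, w⟫ ≤ κ * ‖w‖ ^ 2 := by
  obtain ⟨hw1, hw2⟩ := mem_Vp.1 hw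
  have h := G.curv q.1 hq.1.1 q.2 hq.1.2 w hw1
  rw [inner_Rm_tangent hq.1 hw1, real_inner_self_eq_norm_sq]
  rw [hq.2, real_inner_comm w q.2, hw2] at h
  simpa [dP] using h

section U

variable {a : ℝ} {G : Geo n N (-(a ^ 2)) S} {V : TT N → Op N}

lemma IsU.mem (h : IsU G V) (hq : q ∈ US G) (w : Euc N) : V q w ∈ Vp G q := by
  have h1 : Pv G q (V q w) = V q w := by
    refine ext_inner_right ℝ fun y => ?_
    rw [inner_Pv hq.1, h.symm q hq, h.comp_Pv q hq, h.symm q hq]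
  rw [← h1]
  exact Pv_mem hq.1 hq.2 _

lemma IsU.Pv_comp (h : IsU G V) (hq : q ∈ US G) (w : Euc N) : Pv G q (V q w) = V q w :=
  Pv_of_mem hq.1 (h.mem hq w)

lemma IsU.hat_symm (h : IsU G V) (hq : q ∈ US G) (t : ℝ) (x y : Euc N) :
    ⟪hat G V q t x, y⟫ = ⟪x, hat G V q t y⟫ := by
  rw [inner_hat, h.symm _ (fl_US hq t), real_inner_comm, ← inner_hat, real_inner_comm]

lemma IsU.hat_Pv (h : IsU G V) (hq : q ∈ US G) (t : ℝ) (x : Euc N) :
    hat G V q t (Pv G q x) = hat G V q t x := by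
  rw [hat_apply, hat_apply, ← Pv_PT hq.1, h.comp_Pv _ (fl_US hq t)]

lemma IsU.hat_mem (h : IsU G V) (hq : q ∈ US G) (t : ℝ) (x : Euc N) :
    hat G V q t x ∈ Vp G q := by
  rw [← velocity_Vp hq.1 t, hat_apply, PT_PTi hq.1]
  exact h.mem (fl_US hq t) _

lemma IsU.hat_lower (h : IsU G V) (hq : q ∈ US G) (t : ℝ) {w : Euc N} (hw : w ∈ Vp G q) :
    a * ‖w‖ ^ 2 ≤ ⟪hat G V q t w, w⟫ := by
  rw [inner_hat, ← norm_PT hq.1 t w]
  exact h.lower _ (fl_US hq t) _ ((velocity_Vp hq.1 t).2 hw)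

/-- the extension by `a` on `Vpᗮ` is `≥ a` on the whole space -/
lemma IsU.ext_lower (h : IsU G V) (hq : q ∈ US G) (t : ℝ) (x : Euc N) :
    a * ‖x‖ ^ 2 ≤ ⟪(hat G V q t + a • (ContinuousLinearMap.id ℝ (Euc N) - Pv G q)) x, x⟫ := by
  have h1 := h.hat_lower hq t (Pv_mem hq.1 hq.2 x)
  have h2 : ⟪hat G V q t (Pv G q x), Pv G q x⟫ = ⟪hat G V q t x, x⟫ := by
    rw [h.hat_Pv hq, h.hat_symm hq, h.hat_Pv hq, h.hat_symm hq]
  have h3 : ⟪x - Pv G q x, x⟫ = ‖x - Pv G q x‖ ^ 2 := by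
    have h4 : ⟪x - Pv G q x, Pv G q x⟫ = 0 := by
      rw [← inner_Pv hq.1, map_sub, Pv_Pv hq, sub_self, inner_zero_left]
    rw [← real_inner_self_eq_norm_sq, inner_sub_right, h4, sub_zero]
  have h5 := norm_sq_Pv hq x
  simp only [ContinuousLinearMap.add_apply, ContinuousLinearMap.smul_apply,
    ContinuousLinearMap.sub_apply, ContinuousLinearMap.id_apply, inner_add_left, inner_smul_left,
    h3, conj_trivial]
  rw [h2] at h1
  rw [h5, mul_add]
  linarith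

lemma IsU.exists_bound (h : IsU G V) (hc : IsCompact S) : ∃ b, 0 < b ∧ ∀ q ∈ US G, ‖V q‖ ≤ b := by
  obtain ⟨C, hC⟩ := (isCompact_US G hc).exists_bound_of_continuousOn h.cont
  exact ⟨|C| + 1, by positivity, fun q hq => (hC q hq).trans (by linarith [le_abs_self C])⟩

end U

end Crest.Agent.N221
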