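import Crest.Agent.N221.Top
import Crest.Agent.N221.A
import Crest.Agent.N221.B.Geo
import Crest.Agent.N221.B.Liou
import Crest.Agent.N221.B.Mu
import Crest.Agent.N221.U.Ric
import Crest.Agent.N221.U.Ex
import Crest.Agent.N221.U.Lip
import Crest.Agent.N221.U.Ju
import Crest.Agent.N221.U.Dn
import Crest.Agent.N221.P.Par
import Crest.Agent.N221.P.Tau
import Crest.Agent.N221.En.All
import Crest.Agent.N221.C.Ex
import Crest.Agent.N221.C.Vol
import Crest.Agent.N221.C.Lps

/-!
Row 221: the toolbox instantiated; `S0342` follows from the two core statements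
`A1S` (Liouville = Bowen-Margulis makes `U` smooth) and `A2S` (smooth `U` makes `R` parallel).
-/

set_option autoImplicit false

open Set
open scoped ContDiff
open Crest.GeometryTopology.Submanifold
open Crest.Agent.R241.DDefs Crest.Agent.R241.D2
open Crest.Agent.R208.J Crest.Agent.R208.L

namespace Crest.Agent.N221

theorem uHol : UHolS := uHolS ricS uExS
theorem ju : JuS := juS uExS
theorem dn : DnS := dnS uExS ju
theorem ldetT : LdetS := ldetS uExS
theorem parT : ParS := parS riemS
theorem tauT : TauS := tauS ricS uExS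
theorem toPar : ToParS := toParS uExS
theorem sys : SysS := sysS uExS
theorem volT : VolS := volS covS muS uHol dn
theorem lps : LpsS := lpsS covS uHol

theorem s0342_of_core (core : CoreS)
    (n N : ℕ) (hn : 3 ≤ n) (S : Set (EuclideanSpace ℝ (Fin N))) (hS : IsSubmanifold n N S)
    (hcpt : IsCompact S) (hconn : IsConnected S)
    (hneg : ∀ p ∈ S, ∀ (f : EuclideanSpace ℝ (Fin n) → EuclideanSpace ℝ (Fin N))
      (V : Set (EuclideanSpace ℝ (Fin n))), IsLocalParam n N S p f V →
      ∀ u v : EuclideanSpace ℝ (Fin n), 0 < gramDet f 0 u v → secNum f 0 u v < 0)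
    (Φ : ℝ → EuclideanSpace ℝ (Fin N) × EuclideanSpace ℝ (Fin N) →
      EuclideanSpace ℝ (Fin N) × EuclideanSpace ℝ (Fin N)) (hΦ : IsGeodesicFlow S Φ) :
    ((ksEntropy (liouville S n) (Φ 1) : EReal) =
      Dynamics.coverEntropy (Φ 1) (unitTangent S)) ↔ CurvatureParallel n N S :=
  s0342_of geoS flowS liouS parT tauT sys volT lps En.sTr En.main core n N hn S hS hcpt hconn
    hneg Φ hΦ

end Crest.Agent.N221
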