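import Crest.Agent.R208.J6
import Crest.Agent.N221.En.Defs

/-!
Row 221 (S0342, Katok's entropy rigidity), toolbox definitions (helper71).

Everything is ambient, on top of the Blaschke library: `G : Geo n N (-(a^2)) S`, geodesic flow
`fl G (q, t)`, unit tangent bundle `US G`, parallel transport `PT G q t` (isometry of `ℝ^N`) with
inverse `PTi`, curvature operator `Rm G q w = R(w,v)v` (so `⟪Rm q w, w⟫ ≤ -a² ‖w‖²` on
`Vp G q = v^⊥ ∩ T_x`), `Rh G q t` the same in the parallel frame, `Pv G q` the orthogonal projection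
on `Vp G q`, Jacobi fields `Wj G q a b t` (parallel frame, `j(0) = a`, `j'(0) = b`).

* `U G q`   : the UNSTABLE Riccati solution (`U' + U² + R = 0`, `U ≥ a` on `Vp`, `0` on `Vpᗮ`);
  the stable one is `-U G (rev q)`; in the notes `A(v) = U (rev v)`, `A⁻(v) = U v`.
* `tau G q = tr (U G q)`, `St G t q = ∫₀ᵗ tau (φ_s q) ds`, `mu G` normalised Liouville measure.
* `Ju G q t`, `Js G q t` : unstable / stable Jacobi tensors (parallel frame, `= Pv` at `t = 0`).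
-/

set_option autoImplicit false

open MeasureTheory Set Filter Topology
open scoped ContDiff RealInnerProductSpace ENNReal
open Crest.GeometryTopology.Submanifold
open Crest.Agent.R241.DDefs Crest.Agent.R241.D2
open Crest.Agent.R208.J Crest.Agent.R208.L

noncomputable section

namespace Crest.Agent.N221

/-- ambient space of the tangent bundle -/
abbrev TT (N : ℕ) := Euc N × Euc N

/-- ambient operators -/
abbrev Op (N : ℕ) := Euc N →L[ℝ] Euc N

/-- standing hypotheses (curvature `≤ -a²` is part of `G : Geo n N (-(a^2)) S`) -/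
structure Hyp (n N : ℕ) (a : ℝ) (S : Set (Euc N)) : Prop where
  a_pos : 0 < a
  sub : IsSubmanifold n N S
  cpt : IsCompact S
  conn : IsConnected S
  hn : 3 ≤ n

section general

variable {n N : ℕ} {κ : ℝ} {S : Set (Euc N)} (G : Geo n N κ S)

/-- the time `t` map of the geodesic flow -/
def ph (t : ℝ) (q : TT N) : TT N := fl G (q, t)

/-- normalised Liouville measure -/
def mu : Measure (TT N) := (nu G univ)⁻¹ • nu G

/-- a field of operators read in the parallel frame along the geodesic of `q` -/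
def hat (F : TT N → Op N) (q : TT N) (t : ℝ) : Op N :=
  PTi G q t ∘L F (fl G (q, t)) ∘L PT G q t

lemma Rh_eq_hat (q : TT N) (t : ℝ) : Rh G q t = hat G (Rm G) q t := rfl

/-- Jacobi tensor with initial data `(A, B)` in the parallel frame -/
def Jac (q : TT N) (A B : Op N) (t : ℝ) : Op N :=
  PTi G q t ∘L (ContinuousLinearMap.fst ℝ (Euc N) (Euc N)) ∘L (fderiv ℝ (fl G) (q, t)) ∘L
    (ContinuousLinearMap.inl ℝ (TT N) ℝ) ∘L (A.prod (dP G q ∘L A + B))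

lemma Jac_apply (q : TT N) (A B : Op N) (t : ℝ) (w : Euc N) :
    Jac G q A B t w = Wj G q (A w) (B w) t := rfl

/-- `⟨R(X,Y)Z,W⟩` by the Gauss equation (tangent vectors at `x ∈ S`) -/
def R4 (x X Y Z W : Euc N) : ℝ :=
  ⟪II G x X W, II G x Y Z⟫ - ⟪II G x X Z, II G x Y W⟫

/-- the curvature operator `R(·,v)v` is parallel along every unit speed geodesic -/
def Par : Prop := ∀ q ∈ US G, ∀ t, Rh G q t = Rm G q

end general

variable {n N : ℕ} {a : ℝ} {S : Set (Euc N)} (G : Geo n N (-(a ^ 2)) S)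

/-- `V` is the unstable Riccati field -/
structure IsU (V : TT N → Op N) : Prop where
  cont : ContinuousOn V (US G)
  symm : ∀ q ∈ US G, ∀ x y, ⟪V q x, y⟫ = ⟪x, V q y⟫
  comp_Pv : ∀ q ∈ US G, ∀ x, V q (Pv G q x) = V q x
  lower : ∀ q ∈ US G, ∀ w ∈ Vp G q, a * ‖w‖ ^ 2 ≤ ⟪V q w, w⟫
  ric : ∀ q ∈ US G, ∀ t,
    HasDerivAt (hat G V q) (-(hat G V q t ∘L hat G V q t) - Rh G q t) t

/-- the unstable Riccati field -/
def U : TT N → Op N := Classical.epsilon (IsU G)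

/-- its trace -/
def tau (q : TT N) : ℝ := LinearMap.trace ℝ (Euc N) (U G q : Euc N →ₗ[ℝ] Euc N)

/-- ergodic integrals of `tau` -/
def St (t : ℝ) (q : TT N) : ℝ := En.fS (ph G) (tau G) t q

lemma St_def (t : ℝ) (q : TT N) : St G t q = ∫ s in (0 : ℝ)..t, tau G (fl G (q, s)) := rfl

/-- unstable Jacobi tensor -/
def Ju (q : TT N) (t : ℝ) : Op N := Jac G q (Pv G q) (U G q) t

/-- stable Jacobi tensor -/
def Js (q : TT N) (t : ℝ) : Op N := Jac G q (Pv G q) (-U G (rev q)) t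

/-- `tau` is continuously cohomologous to a constant:
`St t q - h t = α q - α (φ_t q)` with `α` continuous on `US G` -/
def Cob : Prop := ∃ h : ℝ, En.Cob (US G) (ph G) (St G) h

/-! ### statements: bridge to the Prelude -/

/-- B1 -/
def GeoS : Prop := ∀ (n N : ℕ) (S : Set (Euc N)), 3 ≤ n → IsSubmanifold n N S → IsCompact S →
  IsConnected S → (∀ p ∈ S, ∀ (f : Euc n → Euc N) (V : Set (Euc n)), IsLocalParam n N S p f V →
    ∀ u v : Euc n, 0 < gramDet f 0 u v → secNum f 0 u v < 0) →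
  ∃ a : ℝ, Hyp n N a S ∧ Nonempty (Geo n N (-(a ^ 2)) S)

/-- B2 -/
def FlowS : Prop := ∀ (n N : ℕ) (κ : ℝ) (S : Set (Euc N)) (G : Geo n N κ S),
  IsSubmanifold n N S → unitTangent S = US G ∧
    ∀ Φ : ℝ → TT N → TT N, IsGeodesicFlow S Φ → ∀ q ∈ US G, ∀ t, Φ t q = ph G t q

/-- B3 -/
def LiouS : Prop := ∀ (n N : ℕ) (κ : ℝ) (S : Set (Euc N)) (G : Geo n N κ S), 2 ≤ n →
  IsSubmanifold n N S → IsCompact S → liouville S n = mu G

/-- B4 -/
def RiemS : Prop := ∀ (n N : ℕ) (κ : ℝ) (S : Set (Euc N)) (G : Geo n N κ S),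
  IsSubmanifold n N S → ∀ (p : Euc N) (f : Euc n → Euc N) (V : Set (Euc n)),
    IsLocalParam n N S p f V → ∀ X ∈ G.T p, ∀ Y ∈ G.T p, ∀ Z ∈ G.T p, ∀ W ∈ G.T p,
      riem4 f 0 X Y Z W = R4 G p X Y Z W

/-- basic facts on `US` and `mu` -/
def MuS : Prop := ∀ (n N : ℕ) (a : ℝ) (S : Set (Euc N)) (G : Geo n N (-(a ^ 2)) S),
  Hyp n N a S → IsCompact (US G) ∧ IsConnected (US G) ∧ IsProbabilityMeasure (mu G) ∧
    mu G (US G)ᶜ = 0 ∧ (∀ t, MeasurePreserving (ph G t) (mu G) (mu G)) ∧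
    MeasurePreserving rev (mu G) (mu G)

/-! ### statements: Riccati field and Jacobi tensors -/

/-- contraction of symmetric Riccati solutions `≥ a` -/
def RicS : Prop := ∀ (N : ℕ) (a : ℝ) (V W R R' : ℝ → Op N) (s t : ℝ), 0 < a → s ≤ t →
  ContinuousOn R (Icc s t) → ContinuousOn R' (Icc s t) →
  (∀ u ∈ Icc s t, HasDerivAt V (-(V u ∘L V u) - R u) u) →
  (∀ u ∈ Icc s t, HasDerivAt W (-(W u ∘L W u) - R' u) u) →
  (∀ u ∈ Icc s t, ∀ x y, ⟪V u x, y⟫ = ⟪x, V u y⟫) →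
  (∀ u ∈ Icc s t, ∀ x y, ⟪W u x, y⟫ = ⟪x, W u y⟫) →
  (∀ u ∈ Icc s t, ∀ x, a * ‖x‖ ^ 2 ≤ ⟪V u x, x⟫) →
  (∀ u ∈ Icc s t, ∀ x, a * ‖x‖ ^ 2 ≤ ⟪W u x, x⟫) →
  ‖V t - W t‖ ≤ Real.sqrt N * (Real.exp (-(2 * a * (t - s))) * ‖V s - W s‖ +
    ∫ u in s..t, Real.exp (-(2 * a * (t - u))) * ‖R u - R' u‖)

/-- existence of the unstable Riccati field -/
def UExS : Prop := ∀ (n N : ℕ) (a : ℝ) (S : Set (Euc N)) (G : Geo n N (-(a ^ 2)) S),
  Hyp n N a S → IsU G (U G)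

/-- exponential Lipschitz bounds for the flow and the parallel transport -/
def LipS : Prop := ∀ (n N : ℕ) (κ : ℝ) (S : Set (Euc N)) (G : Geo n N κ S), IsCompact S →
  ∃ L : ℝ, 0 < L ∧ ∀ z ∈ US G, ∀ w ∈ US G, ∀ t,
    dist (fl G (z, t)) (fl G (w, t)) ≤ Real.exp (L * |t|) * dist z w ∧
    ‖PT G z t - PT G w t‖ ≤ Real.exp (L * |t|) * dist z w ∧
    ‖Rh G z t - Rh G w t‖ ≤ L * Real.exp (L * |t|) * dist z w ∧
    ‖Pv G z - Pv G w‖ ≤ L * dist z w

/-- Hölder continuity of `U` -/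
def UHolS : Prop := ∀ (n N : ℕ) (a : ℝ) (S : Set (Euc N)) (G : Geo n N (-(a ^ 2)) S),
  Hyp n N a S → ∃ θ C : ℝ, 0 < θ ∧ θ ≤ 1 ∧ 0 < C ∧ ∀ z ∈ US G, ∀ w ∈ US G,
    ‖U G z - U G w‖ ≤ C * dist z w ^ θ ∧ |tau G z - tau G w| ≤ C * dist z w ^ θ

/-- first order equations, growth and determinant of the unstable / stable Jacobi tensors -/
def JuS : Prop := ∀ (n N : ℕ) (a : ℝ) (S : Set (Euc N)) (G : Geo n N (-(a ^ 2)) S),
  Hyp n N a S → ∃ b : ℝ, a ≤ b ∧ ∀ q ∈ US G, ‖U G q‖ ≤ b ∧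
    (∀ t w, Wj' G q (Pv G q w) (U G q w) t = hat G (U G) q t (Ju G q t w)) ∧
    (∀ t w, Wj' G q (Pv G q w) (-U G (rev q) w) t =
      -hat G (fun z => U G (rev z)) q t (Js G q t w)) ∧
    (∀ t, Js G q t = Ju G (rev q) (-t)) ∧
    (∀ t w, Ju G q t w ∈ Vp G q) ∧
    (∀ s t w, s ≤ t → Real.exp (a * (t - s)) * ‖Ju G q s w‖ ≤ ‖Ju G q t w‖ ∧
      ‖Ju G q t w‖ ≤ Real.exp (b * (t - s)) * ‖Ju G q s w‖) ∧
    (∀ t, (Ju G q t + (ContinuousLinearMap.id ℝ (Euc N) - Pv G q)).det = Real.exp (St G t q))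

/-- the polar density is comparable with `exp (St)` -/
def DnS : Prop := ∀ (n N : ℕ) (a : ℝ) (S : Set (Euc N)) (G : Geo n N (-(a ^ 2)) S),
  Hyp n N a S → ∃ C : ℝ, 0 < C ∧ ∀ q ∈ US G,
    (∀ t, 0 ≤ t → Dn G q 0 t ≤ C * Real.exp (St G t q)) ∧
    (∀ t, 1 ≤ t → Real.exp (St G t q) ≤ C * Dn G q 0 t)

/-- `log det (U + U ∘ rev)` on `Vp` -/
def ldet (q : TT N) : ℝ :=
  Real.log (U G q + U G (rev q) + (ContinuousLinearMap.id ℝ (Euc N) - Pv G q)).det

/-- `X ldet = tau ∘ rev - tau` in integrated form -/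
def LdetS : Prop := ∀ (n N : ℕ) (a : ℝ) (S : Set (Euc N)) (G : Geo n N (-(a ^ 2)) S),
  Hyp n N a S → ContinuousOn (ldet G) (US G) ∧
    (∀ q ∈ US G, 0 < (U G q + U G (rev q) + (ContinuousLinearMap.id ℝ (Euc N) - Pv G q)).det) ∧
    ∀ q ∈ US G, ∀ t, ldet G (fl G (q, t)) - ldet G q = -St G (-t) (rev q) - St G t q

/-! ### statements: parallel curvature -/

/-- T3a + T5b -/
def ParS : Prop := ∀ (n N : ℕ) (κ : ℝ) (S : Set (Euc N)) (G : Geo n N κ S),
  IsSubmanifold n N S → (Par G ↔ CurvatureParallel n N S)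

/-- T3b: parallel curvature makes `U` parallel with `U² = -R`, so `tau` is flow invariant -/
def TauS : Prop := ∀ (n N : ℕ) (a : ℝ) (S : Set (Euc N)) (G : Geo n N (-(a ^ 2)) S),
  Hyp n N a S → Par G → ∀ q ∈ US G, (∀ t, hat G (U G) q t = U G q) ∧
    U G q ∘L U G q = -Rm G q ∧ ∀ t, tau G (fl G (q, t)) = tau G q

/-- T5a: two ways to reach `Par` -/
def ToParS : Prop := ∀ (n N : ℕ) (a : ℝ) (S : Set (Euc N)) (G : Geo n N (-(a ^ 2)) S),
  Hyp n N a S → ((∀ q ∈ US G, U G (rev q) = U G q) → Par G) ∧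
    ((∀ q ∈ US G, deriv (Rh G q) 0 = 0) → Par G)

/-! ### statements: input of the ergodic layer `En.StmtMain`, and the core -/

/-- the geodesic flow is a system in the sense of `En` -/
def SysS : Prop := ∀ (n N : ℕ) (a : ℝ) (S : Set (Euc N)) (G : Geo n N (-(a ^ 2)) S),
  Hyp n N a S → En.IsSys (US G) (ph G) (mu G) (tau G)

/-- volume lemma (helper85) -/
def VolS : Prop := ∀ (n N : ℕ) (a : ℝ) (S : Set (Euc N)) (G : Geo n N (-(a ^ 2)) S),
  Hyp n N a S → En.VolUp (US G) (ph G) (mu G) (tau G) ∧ En.VolLow (US G) (ph G) (mu G) (tau G)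

/-- local product structure (helper85) -/
def LpsS : Prop := ∀ (n N : ℕ) (a : ℝ) (S : Set (Euc N)) (G : Geo n N (-(a ^ 2)) S),
  Hyp n N a S → En.LPS (US G) (ph G) (St G)

/-- the core of Katok's conjecture -/
def CoreS : Prop := ∀ (n N : ℕ) (a : ℝ) (S : Set (Euc N)) (G : Geo n N (-(a ^ 2)) S),
  Hyp n N a S → Cob G → Par G

end Crest.Agent.N221
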