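import Crest.Agent.N221.Defs

/-! Row 221: S0342 from the toolbox statements and the core (helper71). -/

set_option autoImplicit false

open MeasureTheory Set Filter Topology
open Crest.GeometryTopology.Submanifold
open Crest.Agent.R241.DDefs Crest.Agent.R241.D2
open Crest.Agent.R208.J Crest.Agent.R208.L

namespace Crest.Agent.N221

theorem ent_congr (hTr : En.StmtTr) {E : Type} [MetricSpace E] [MeasurableSpace E]
    (μ : Measure E) {K : Set E} (hK : MeasurableSet K) (h0 : μ Kᶜ = 0) {T T' : E → E}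
    (hm : MapsTo T' K K) (he : EqOn T T' K) :
    ksEntropy μ T = ksEntropy μ T' ∧ Dynamics.coverEntropy T K = Dynamics.coverEntropy T' K := by
  have hm' : MapsTo T K K := fun x hx => by rw [he hx]; exact hm hx
  have hr : hm'.restrict T K K = hm.restrict T' K K := by
    funext x
    exact Subtype.ext (he x.2)
  refine ⟨?_, ?_⟩
  · rw [hTr E K μ T hm' hK h0, hTr E K μ T' hm hK h0, hr]
  · rw [← Dynamics.coverEntropy_restrict hm', ← Dynamics.coverEntropy_restrict hm, hr]

theorem s0342_of (hGeo : GeoS) (hFlow : FlowS) (hLiou : LiouS) (hPar : ParS) (hTau : TauS)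
    (hSys : SysS) (hVol : VolS) (hLps : LpsS) (hTr : En.StmtTr) (hMain : En.StmtMain)
    (core : CoreS)
    (n N : ℕ) (hn : 3 ≤ n) (S : Set (EuclideanSpace ℝ (Fin N))) (hS : IsSubmanifold n N S)
    (hcpt : IsCompact S) (hconn : IsConnected S)
    (hneg : ∀ p ∈ S, ∀ (f : EuclideanSpace ℝ (Fin n) → EuclideanSpace ℝ (Fin N))
      (V : Set (EuclideanSpace ℝ (Fin n))), IsLocalParam n N S p f V →
      ∀ u v : EuclideanSpace ℝ (Fin n), 0 < gramDet f 0 u v → secNum f 0 u v < 0)
    (Φ : ℝ → EuclideanSpace ℝ (Fin N) × EuclideanSpace ℝ (Fin N) →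
      EuclideanSpace ℝ (Fin N) × EuclideanSpace ℝ (Fin N)) (hΦ : IsGeodesicFlow S Φ) :
    ((ksEntropy (liouville S n) (Φ 1) : EReal) = Dynamics.coverEntropy (Φ 1) (unitTangent S))
      ↔ CurvatureParallel n N S := by
  obtain ⟨a, H, ⟨G⟩⟩ := hGeo n N S hn hS hcpt hconn hneg
  obtain ⟨hU, hF⟩ := hFlow n N _ S G hS
  have hsys := hSys n N a S G H
  obtain ⟨h1, h2⟩ := ent_congr hTr (mu G) (isClosed_US G).measurableSet hsys.carried
    (hsys.maps 1) (fun q hq => hF Φ hΦ q hq 1 : EqOn (Φ 1) (ph G 1) (US G))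
  obtain ⟨hA, hB, -⟩ := hMain _ (US G) (ph G) (mu G) (tau G) hsys (hVol n N a S G H).1
    (hVol n N a S G H).2 (hLps n N a S G H)
  rw [hLiou n N _ S G (by omega) hS hcpt, hU, h1, h2, hA, ← hPar n N _ S G hS]
  exact ⟨fun h => core n N a S G H h,
    fun h => hB fun t z hz => (hTau n N a S G H h z hz).2.2 t⟩

end Crest.Agent.N221
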